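import Mathlib
import Crest.Agent.Lib.Kurosh.NCComm

/-!
# Lemma H′ (blueprint section 5(d))

Order by order solution of `F_i ∘ Θ = 0`, `R_a ∘ Θ = 0` for a substitution `Θ` with prescribed linear
part, where the `F_i` are arbitrary series with zero constant term and the `R_a` are cyc-null.

Everything is abstract over a field `F` of characteristic zero, on `NCSeries`, `NCSubst`, `NCComm`:
letters `L` (finite), target letters `Y` (finite), tangent vectors `τ : Y → L → F`.

Main results: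
* `exists_Theta` : the general statement.
* `exists_Theta_two` : the version with `Y = Fin 2` and tangents `v`, `w`.
-/

set_option autoImplicit false

namespace Crest.Agent.Lib.Kurosh.LemmaH

open NCSeries

universe u v w

variable {F : Type u} [Field F] {L : Type v} {Y : Type w}

theorem smul_eq_C_mul (a : F) (f : NCSeries Y F) : a • f = C a * f := by
  ext u
  rw [coeff_smul, C_mul_coeff, smul_eq_mul]

theorem mul_C_eq_smul (f : NCSeries Y F) (a : F) : f * C a = a • f := by
  ext u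
  rw [coeff_mul_C, coeff_smul, smul_eq_mul, mul_comm]

theorem C_comm (a : F) (f : NCSeries Y F) : C a * f = f * C a := by
  rw [← smul_eq_C_mul, mul_C_eq_smul]

theorem smul_mem_ordGE (a : F) {n : ℕ} {f : NCSeries Y F} (hf : f ∈ ordGE Y F n) :
    a • f ∈ ordGE Y F n := by
  intro u hu
  rw [coeff_smul, hf u hu, smul_zero]

theorem mul_mem_ordGE' {a b c : ℕ} {f g : NCSeries Y F} (hf : f ∈ ordGE Y F a)
    (hg : g ∈ ordGE Y F b) (h : c ≤ a + b) : f * g ∈ ordGE Y F c :=
  ordGE_mono h (mul_mem_ordGE hf hg)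

theorem ordGE_zero (f : NCSeries Y F) : f ∈ ordGE Y F 0 :=
  fun _ hu => absurd hu (Nat.not_lt_zero _)

section Comp

theorem substData {φ : L → NCSeries Y F} (h : ∀ x, φ x ∈ ordGE Y F 1) :
    SubstData (Filt.ordFilt F Y) (CHom : F →+* NCSeries Y F) φ :=
  ⟨fun x => Filt.mem_ordFilt_iff.mpr (h x), fun a _ => C_comm a _⟩

variable [Fintype L]

/-- The composition `G ↦ G ∘ φ` (substitution of `φ x` for the letter `x`). -/
noncomputable def comp (φ : L → NCSeries Y F) (h : ∀ x, φ x ∈ ordGE Y F 1) :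
    NCSeries L F →+* NCSeries Y F := subst (substData h)

theorem comp_eq (φ : L → NCSeries Y F) (h : ∀ x, φ x ∈ ordGE Y F 1) (G : NCSeries L F) :
    comp φ h G = C (coeff [] G) + ∑ x, φ x * comp φ h (dl x G) :=
  subst_eq (substData h) G

@[simp] theorem comp_C (φ : L → NCSeries Y F) (h : ∀ x, φ x ∈ ordGE Y F 1) (a : F) :
    comp φ h (C a) = C a := subst_C (substData h) a

@[simp] theorem comp_X (φ : L → NCSeries Y F) (h : ∀ x, φ x ∈ ordGE Y F 1) (x : L) :
    comp φ h (X x) = φ x := subst_X (substData h) x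

variable {φ φ' : L → NCSeries Y F} (h : ∀ x, φ x ∈ ordGE Y F 1) (h' : ∀ x, φ' x ∈ ordGE Y F 1)

theorem comp_sub_const_mem (G : NCSeries L F) :
    comp φ h G - C (coeff [] G) ∈ ordGE Y F 1 := by
  rw [comp_eq, add_sub_cancel_left]
  exact AddSubgroup.sum_mem _ fun x _ => mul_mem_ordGE_left (h x) _

theorem comp_diff_eq (G : NCSeries L F) :
    comp φ' h' G - comp φ h G = ∑ x, ((φ' x - φ x) * comp φ' h' (dl x G) +
      φ x * (comp φ' h' (dl x G) - comp φ h (dl x G))) := by
  rw [comp_eq φ' h' G, comp_eq φ h G, add_sub_add_left_eq_sub, ← Finset.sum_sub_distrib]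
  refine Finset.sum_congr rfl fun x _ => ?_
  noncomm_ring

/-- Claim A: if `φ' ≡ φ` mod order `m`, then `G ∘ φ' ≡ G ∘ φ` mod order `m`. -/
theorem comp_sub_mem {m : ℕ} (hΞ : ∀ x, φ' x - φ x ∈ ordGE Y F m) (G : NCSeries L F) :
    comp φ' h' G - comp φ h G ∈ ordGE Y F m := by
  have key : ∀ k, k ≤ m → ∀ G : NCSeries L F, comp φ' h' G - comp φ h G ∈ ordGE Y F k := by
    intro k
    induction k with
    | zero => intro _ G; exact ordGE_zero _
    | succ k ih =>
      intro hk G
      rw [comp_diff_eq h h']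
      refine AddSubgroup.sum_mem _ fun x _ => add_mem ?_ ?_
      · exact ordGE_mono hk (mul_mem_ordGE_left (hΞ x) _)
      · exact mul_mem_ordGE' (h x) (ih (by omega) _) (by omega)
  exact key m le_rfl G

/-- Claim B: first order expansion in the substitution. -/
theorem comp_linear {m : ℕ} (hΞ : ∀ x, φ' x - φ x ∈ ordGE Y F m) (G : NCSeries L F) :
    comp φ' h' G - comp φ h G - ∑ x, coeff [x] G • (φ' x - φ x) ∈ ordGE Y F (m + 1) := by
  rw [comp_diff_eq h h', ← Finset.sum_sub_distrib]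
  refine AddSubgroup.sum_mem _ fun x _ => ?_
  have e : (φ' x - φ x) * comp φ' h' (dl x G) +
        φ x * (comp φ' h' (dl x G) - comp φ h (dl x G)) - coeff [x] G • (φ' x - φ x) =
      (φ' x - φ x) * (comp φ' h' (dl x G) - C (coeff [] (dl x G))) +
        φ x * (comp φ' h' (dl x G) - comp φ h (dl x G)) := by
    rw [show coeff [x] G = coeff [] (dl x G) from rfl, ← mul_C_eq_smul]
    noncomm_ring
  rw [e]
  exact add_mem (mul_mem_ordGE (hΞ x) (comp_sub_const_mem h' _))
    (mul_mem_ordGE' (h x) (comp_sub_mem h h' hΞ _) (by omega))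

/-- Second order truncation: if `G` has no constant term and `φ' ≡ φ` mod order two, then
`G ∘ φ' ≡ ∑ x, G_x φ x` mod order two. -/
theorem comp_two (hΞ : ∀ x, φ' x - φ x ∈ ordGE Y F 2) {G : NCSeries L F}
    (hG : coeff [] G = 0) :
    comp φ' h' G - ∑ x, coeff [x] G • φ x ∈ ordGE Y F 2 := by
  rw [comp_eq φ' h' G, hG, C_zero, zero_add, ← Finset.sum_sub_distrib]
  refine AddSubgroup.sum_mem _ fun x _ => ?_
  have e : φ' x * comp φ' h' (dl x G) - coeff [x] G • φ x =
      φ' x * (comp φ' h' (dl x G) - C (coeff [] (dl x G))) +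
        (φ' x - φ x) * C (coeff [] (dl x G)) := by
    rw [show coeff [x] G = coeff [] (dl x G) from rfl, ← mul_C_eq_smul]
    noncomm_ring
  rw [e]
  exact add_mem (mul_mem_ordGE (h' x) (comp_sub_const_mem h' _))
    (mul_mem_ordGE_left (hΞ x) _)

/-- Claim C: second order expansion, for a series without linear part. -/
theorem comp_quad {m : ℕ} (hm : 2 ≤ m) (hΞ : ∀ x, φ' x - φ x ∈ ordGE Y F m) {R : NCSeries L F}
    (hR : ∀ x, coeff [x] R = 0) :
    comp φ' h' R - comp φ h R -
      ∑ x, ∑ x', coeff [x, x'] R • (φ x * (φ' x' - φ x') + (φ' x - φ x) * φ x') ∈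
      ordGE Y F (m + 2) := by
  rw [comp_diff_eq h h', ← Finset.sum_sub_distrib]
  refine AddSubgroup.sum_mem _ fun x _ => ?_
  have hB := comp_linear h h' hΞ (dl x R)
  have hT := comp_two (φ := φ) (φ' := φ') h' (fun x => ordGE_mono hm (hΞ x))
    (G := dl x R) (hR x)
  have e : (φ' x - φ x) * comp φ' h' (dl x R) +
        φ x * (comp φ' h' (dl x R) - comp φ h (dl x R)) -
        ∑ x', coeff [x, x'] R • (φ x * (φ' x' - φ x') + (φ' x - φ x) * φ x') =
      φ x * (comp φ' h' (dl x R) - comp φ h (dl x R) -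
          ∑ x', coeff [x'] (dl x R) • (φ' x' - φ x')) +
        (φ' x - φ x) * (comp φ' h' (dl x R) - ∑ x', coeff [x'] (dl x R) • φ x') := by
    simp only [show ∀ x', coeff [x'] (dl x R) = coeff [x, x'] R from fun _ => rfl, mul_sub,
      Finset.mul_sum, mul_smul_comm, smul_add, Finset.sum_add_distrib]
    abel
  rw [e]
  exact add_mem (mul_mem_ordGE' (h x) hB (by omega)) (mul_mem_ordGE (hΞ x) hT)

end Comp

section Forms

variable [Fintype L]

/-- The linear part of `G` as a form on the letter space. -/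
def dLin (G : NCSeries L F) (z : L → F) : F := ∑ x, coeff [x] G * z x

/-- The two-form of `R` on the letter space: coefficient of the word `(z, z')`. -/
def form (R : NCSeries L F) (z z' : L → F) : F := ∑ x, ∑ x', coeff [x, x'] R * (z x * z' x')

/-- The series `∑ y, τ y x • y`, the linear substitution with tangents `τ`. -/
noncomputable def lin0 [Fintype Y] (τ : Y → L → F) (x : L) : NCSeries Y F := ∑ y, τ y x • X y

theorem coeff_lin0_nil [Fintype Y] (τ : Y → L → F) (x : L) :
    coeff [] (lin0 τ x) = 0 := by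
  simp [lin0]

theorem coeff_lin0_single [Fintype Y] (τ : Y → L → F) (x : L) (y : Y) :
    coeff [y] (lin0 τ x) = τ y x := by
  classical
  simp only [lin0, coeff_sum, coeff_smul, coeff_X, List.cons.injEq, and_true, smul_eq_mul,
    mul_ite, mul_one, mul_zero]
  rw [Finset.sum_eq_single y] <;> simp +contextual [eq_comm]

theorem lin0_mem [Fintype Y] (τ : Y → L → F) (x : L) : lin0 τ x ∈ ordGE Y F 1 := by
  intro u hu
  have : u = [] := List.length_eq_zero_iff.mp (by omega)
  subst this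
  exact coeff_lin0_nil τ x

/-- A series of order `≥ 1` with the right linear coefficients is `lin0 τ x` mod order two. -/
theorem sub_lin0_mem [Fintype Y] {τ : Y → L → F} {x : L} {f : NCSeries Y F}
    (hf : f ∈ ordGE Y F 1) (hl : ∀ y, coeff [y] f = τ y x) : f - lin0 τ x ∈ ordGE Y F 2 := by
  intro u hu
  match u, hu with
  | [], _ => rw [coeff_sub, coeff_lin0_nil, hf [] (by simp), sub_zero]
  | [y], _ => rw [coeff_sub, coeff_lin0_single, hl y, sub_self]
  | _ :: _ :: _, hu => simp at hu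

theorem sum4_comm {α β γ δ M : Type*} [AddCommMonoid M] [Fintype α] [Fintype β] [Fintype γ]
    [Fintype δ] (g : α → β → γ → δ → M) :
    ∑ a, ∑ b, ∑ c, ∑ d, g a b c d = ∑ c, ∑ d, ∑ a, ∑ b, g a b c d := by
  calc ∑ a, ∑ b, ∑ c, ∑ d, g a b c d
      = ∑ a, ∑ c, ∑ b, ∑ d, g a b c d :=
        Finset.sum_congr rfl fun a _ => Finset.sum_comm
    _ = ∑ c, ∑ a, ∑ b, ∑ d, g a b c d := Finset.sum_comm
    _ = ∑ c, ∑ a, ∑ d, ∑ b, g a b c d :=
        Finset.sum_congr rfl fun c _ => Finset.sum_congr rfl fun a _ => Finset.sum_comm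
    _ = ∑ c, ∑ d, ∑ a, ∑ b, g a b c d :=
        Finset.sum_congr rfl fun c _ => Finset.sum_comm

/-- The algebraic identity behind the linearised change of `R ∘ χ`. -/
theorem sum_form_expansion [Fintype Y] (τ : Y → L → F) (Ξ : L → NCSeries Y F)
    {R : NCSeries L F} (hskew : ∀ x x', coeff [x, x'] R = - coeff [x', x] R) :
    ∑ x, ∑ x', coeff [x, x'] R • (lin0 τ x * Ξ x' + Ξ x * lin0 τ x') =
      ∑ y, (X y * (∑ x, ∑ x', (coeff [x, x'] R * τ y x) • Ξ x') -
        (∑ x, ∑ x', (coeff [x, x'] R * τ y x) • Ξ x') * X y) := by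
  have h1 : ∑ x, ∑ x', coeff [x, x'] R • (lin0 τ x * Ξ x') =
      ∑ y, X y * (∑ x, ∑ x', (coeff [x, x'] R * τ y x) • Ξ x') := by
    simp only [lin0, Finset.sum_mul, Finset.mul_sum, Finset.smul_sum, smul_mul_assoc,
      mul_smul_comm, smul_smul]
    rw [Finset.sum_comm (γ := Y)]
    refine Finset.sum_congr rfl fun x _ => ?_
    rw [Finset.sum_comm (γ := Y)]
  have h2 : ∑ x, ∑ x', coeff [x, x'] R • (Ξ x * lin0 τ x') =
      - ∑ y, (∑ x, ∑ x', (coeff [x, x'] R * τ y x) • Ξ x') * X y := by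
    rw [Finset.sum_comm]
    simp only [lin0, Finset.sum_mul, Finset.mul_sum, Finset.smul_sum, smul_mul_assoc,
      mul_smul_comm, smul_smul, ← Finset.sum_neg_distrib]
    rw [Finset.sum_comm (γ := Y)]
    refine Finset.sum_congr rfl fun x' _ => ?_
    rw [Finset.sum_comm (γ := Y)]
    refine Finset.sum_congr rfl fun x _ => ?_
    refine Finset.sum_congr rfl fun y _ => ?_
    rw [hskew x x', neg_mul, neg_smul]
  simp only [smul_add, Finset.sum_add_distrib, Finset.sum_sub_distrib]
  rw [h1, h2, sub_eq_add_neg]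

end Forms

section CommA

variable [CharZero F]

/-- If `c` has order `≥ n + 1` then its commutator coefficients `commA c y` have order `≥ n`. -/
theorem commA_mem {c : NCSeries Y F} {n : ℕ} (hc : c ∈ ordGE Y F (n + 1)) (y : Y) :
    commA c y ∈ ordGE Y F n := by
  intro u hu
  show ((u.length + 1 : ℕ) : F)⁻¹ *
    ∑ i ∈ Finset.range (u.length + 1), (i : F) * coeff ((y :: u).rotate (i + 1)) c = 0
  rw [Finset.sum_eq_zero, mul_zero]
  intro i _
  rw [hc _ (by simp [List.length_rotate]; omega), mul_zero]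

end CommA

section Main

variable [Fintype L] [Fintype Y] {I A : Type*}

/-- The state of the induction: `χ` solves the equations up to order `m` (for `F_i`) and `m + 1`
(for `R_a`), and has the right linear part. -/
structure IsApprox (Fi : I → NCSeries L F) (Ra : A → NCSeries L F) (τ : Y → L → F) (m : ℕ)
    (χ : L → NCSeries Y F) : Prop where
  ord : ∀ x, χ x ∈ ordGE Y F 1
  lin : ∀ x y, coeff [y] (χ x) = τ y x
  hF : ∀ i, comp χ ord (Fi i) ∈ ordGE Y F m
  hR : ∀ a, comp χ ord (Ra a) ∈ ordGE Y F (m + 1)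

variable {Fi : I → NCSeries L F} {Ra : A → NCSeries L F} {τ : Y → L → F}

/-- The base of the induction. -/
theorem isApprox_two (hF0 : ∀ i, coeff [] (Fi i) = 0) (hR0 : ∀ a, coeff [] (Ra a) = 0)
    (hR1 : ∀ a x, coeff [x] (Ra a) = 0)
    (hdF : ∀ i y, dLin (Fi i) (τ y) = 0)
    (hω : ∀ a y y', form (Ra a) (τ y) (τ y') = 0) :
    IsApprox Fi Ra τ 2 (lin0 τ) := by
  refine ⟨lin0_mem τ, coeff_lin0_single τ, fun i => ?_, fun a => ?_⟩
  · have h := comp_two (φ := lin0 τ) (φ' := lin0 τ) (lin0_mem τ)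
      (fun x => by rw [sub_self]; exact zero_mem _) (hF0 i)
    have e : ∑ x, coeff [x] (Fi i) • lin0 τ x = 0 := by
      simp only [lin0, Finset.smul_sum, smul_smul]
      rw [Finset.sum_comm]
      refine Finset.sum_eq_zero fun y _ => ?_
      rw [← Finset.sum_smul]
      have := hdF i y
      simp only [dLin] at this
      rw [this, zero_smul]
    rwa [e, sub_zero] at h
  · -- second order
    have e1 : comp (lin0 τ) (lin0_mem τ) (Ra a) = ∑ x, lin0 τ x * comp (lin0 τ) (lin0_mem τ)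
        (dl x (Ra a)) := by
      rw [comp_eq, hR0, C_zero, zero_add]
    have e2 : ∑ x, ∑ x', coeff [x, x'] (Ra a) • (lin0 τ x * lin0 τ x') = 0 := by
      have e3 : ∀ x x', coeff [x, x'] (Ra a) • (lin0 τ x * lin0 τ x') =
          ∑ y, ∑ y', (coeff [x, x'] (Ra a) * (τ y x * τ y' x')) • (X y * (X y' : NCSeries Y F)) := by
        intro x x'
        simp only [lin0, Finset.sum_mul_sum, Finset.smul_sum, smul_mul_smul_comm, smul_smul]
      simp only [e3]
      rw [sum4_comm]
      refine Finset.sum_eq_zero fun y _ => Finset.sum_eq_zero fun y' _ => ?_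
      simp only [← Finset.sum_smul]
      have := hω a y y'
      simp only [form] at this
      rw [this, zero_smul]
    have e4 : comp (lin0 τ) (lin0_mem τ) (Ra a) =
        ∑ x, lin0 τ x * (comp (lin0 τ) (lin0_mem τ) (dl x (Ra a)) -
          ∑ x', coeff [x'] (dl x (Ra a)) • lin0 τ x') := by
      have : comp (lin0 τ) (lin0_mem τ) (Ra a) = comp (lin0 τ) (lin0_mem τ) (Ra a) -
          ∑ x, ∑ x', coeff [x, x'] (Ra a) • (lin0 τ x * lin0 τ x') := by rw [e2, sub_zero]
      rw [this, e1, ← Finset.sum_sub_distrib]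
      refine Finset.sum_congr rfl fun x _ => ?_
      simp only [show ∀ x', coeff [x'] (dl x (Ra a)) = coeff [x, x'] (Ra a) from fun _ => rfl,
        mul_sub, Finset.mul_sum, mul_smul_comm]
    rw [e4]
    refine AddSubgroup.sum_mem _ fun x _ => ?_
    have h := comp_two (φ := lin0 τ) (φ' := lin0 τ) (lin0_mem τ)
      (fun x => by rw [sub_self]; exact zero_mem _) (G := dl x (Ra a)) (hR1 a x)
    exact mul_mem_ordGE' (lin0_mem τ x) h (by omega)

/-- The homogeneous series of degree `m` with prescribed coefficients. -/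
def homog (m : ℕ) (z : List Y → F) : NCSeries Y F := fun u => if u.length = m then z u else 0

theorem coeff_homog (m : ℕ) (z : List Y → F) (u : List Y) :
    coeff u (homog m z) = if u.length = m then z u else 0 := rfl

theorem homog_mem (m : ℕ) (z : List Y → F) : homog m z ∈ ordGE Y F m := by
  intro u hu
  rw [coeff_homog, if_neg (by omega)]

variable [CharZero F]

/-- The inductive step. -/
theorem step (hR0 : ∀ a, coeff [] (Ra a) = 0) (hRc : ∀ a, CycNull (Ra a))
    (hsurj : ∀ (p : I → F) (q : A → Y → F), ∃ z : L → F,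
      (∀ i, dLin (Fi i) z = p i) ∧ (∀ a y, form (Ra a) (τ y) z = q a y))
    {m : ℕ} (hm : 2 ≤ m) {χ : L → NCSeries Y F} (hχ : IsApprox Fi Ra τ m χ) :
    ∃ χ', IsApprox Fi Ra τ (m + 1) χ' ∧ ∀ x, χ' x - χ x ∈ ordGE Y F m := by
  classical
  -- the correction
  set rr : A → NCSeries Y F := fun a => comp χ hχ.ord (Ra a) with hrr
  choose z hz1 hz2 using fun u : List Y =>
    hsurj (fun i => - coeff u (comp χ hχ.ord (Fi i))) (fun a y => - coeff u (commA (rr a) y))
  let Ξ : L → NCSeries Y F := fun x => homog m (fun u => z u x)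
  have hΞ : ∀ x, Ξ x ∈ ordGE Y F m := fun x => homog_mem m _
  have hΞ1 : ∀ x, Ξ x ∈ ordGE Y F 1 := fun x => ordGE_mono (by omega) (hΞ x)
  have hΞ2 : ∀ x, Ξ x ∈ ordGE Y F 2 := fun x => ordGE_mono hm (hΞ x)
  let χ' : L → NCSeries Y F := fun x => χ x + Ξ x
  have hord' : ∀ x, χ' x ∈ ordGE Y F 1 := fun x => add_mem (hχ.ord x) (hΞ1 x)
  have hsub : ∀ x, χ' x - χ x = Ξ x := fun x => add_sub_cancel_left _ _
  have hsubm : ∀ x, χ' x - χ x ∈ ordGE Y F m := fun x => by rw [hsub]; exact hΞ x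
  refine ⟨χ', ⟨hord', fun x y => ?_, fun i => ?_, fun a => ?_⟩, hsubm⟩
  · -- linear part unchanged
    show coeff [y] (χ x) + coeff [y] (Ξ x) = _
    rw [hχ.lin x y, hΞ2 x [y] (by simp), add_zero]
  · -- the F's
    have hB := comp_linear hχ.ord hord' hsubm (Fi i)
    intro u hu
    have hc := hB u hu
    simp only [hsub, coeff_sub, coeff_sum, coeff_smul, smul_eq_mul] at hc
    rcases Nat.lt_succ_iff_lt_or_eq.mp hu with hlt | heq
    · have h1 : coeff u (comp χ hχ.ord (Fi i)) = 0 := hχ.hF i u hlt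
      have h2 : ∀ x, coeff u (Ξ x) = 0 := fun x => hΞ x u hlt
      simp only [h1, h2, mul_zero, Finset.sum_const_zero, sub_zero] at hc
      exact hc
    · have h2 : ∀ x, coeff u (Ξ x) = z u x := fun x => by
        show coeff u (homog m _) = _
        rw [coeff_homog, if_pos heq]
      have h3 := hz1 u i
      simp only [dLin] at h3
      simp only [h2, h3] at hc
      have h4 : coeff u ((comp χ' hord') (Fi i)) - coeff u ((comp χ hχ.ord) (Fi i)) +
          coeff u ((comp χ hχ.ord) (Fi i)) = coeff u ((comp χ' hord') (Fi i)) := by abel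
      rw [sub_neg_eq_add, h4] at hc
      exact hc
  · -- the R's
    set R := Ra a with hRdef
    have hskew : ∀ x x', coeff [x, x'] R = - coeff [x', x] R := fun x x' =>
      CycNull.coeff_pair (hRc a) x x'
    have hR1 : ∀ x, coeff [x] R = 0 := fun x => CycNull.coeff_single (hRc a) x
    have hC := comp_quad hχ.ord hord' hm hsubm hR1
    have hrmem : rr a ∈ ordGE Y F (m + 1) := hχ.hR a
    have hrnull : CycNull (rr a) := CycNull.map_hom (hRc a) (hR0 a) _
    have hr0 : coeff [] (rr a) = 0 := hrmem [] (by simp)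
    have hrexp := eq_sum_commutator hrnull hr0
    set S : Y → NCSeries Y F := fun y => commA (rr a) y with hS
    have hSmem : ∀ y, S y ∈ ordGE Y F m := fun y => commA_mem hrmem y
    set Ω : Y → NCSeries Y F := fun y => ∑ x, ∑ x', (coeff [x, x'] R * τ y x) • Ξ x' with hΩ
    have hΩS : ∀ y, S y + Ω y ∈ ordGE Y F (m + 1) := by
      intro y u hu
      have hco : coeff u (Ω y) = ∑ x, ∑ x', (coeff [x, x'] R * τ y x) * coeff u (Ξ x') := by
        simp only [hΩ, coeff_sum, coeff_smul, smul_eq_mul]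
      rw [coeff_add, hco]
      rcases Nat.lt_succ_iff_lt_or_eq.mp hu with hlt | heq
      · rw [hSmem y u hlt, zero_add]
        refine Finset.sum_eq_zero fun x _ => Finset.sum_eq_zero fun x' _ => ?_
        rw [hΞ x' u hlt, mul_zero]
      · have h2 : ∀ x, coeff u (Ξ x) = z u x := fun x => by
          show coeff u (homog m _) = _
          rw [coeff_homog, if_pos heq]
        have h3 := hz2 u a y
        simp only [form] at h3
        simp only [h2]
        have h5 : ∑ x, ∑ x', coeff [x, x'] R * τ y x * z u x' =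
            ∑ x, ∑ x', coeff [x, x'] (Ra a) * (τ y x * z u x') :=
          Finset.sum_congr rfl fun x _ => Finset.sum_congr rfl fun x' _ => by
            rw [mul_assoc]
        rw [h5, h3]
        show coeff u (commA (rr a) y) + _ = 0
        ring
    -- replace `χ` by its linear part
    have hlin : ∀ x, χ x - lin0 τ x ∈ ordGE Y F 2 := fun x =>
      sub_lin0_mem (hχ.ord x) (fun y => hχ.lin x y)
    have hexp := sum_form_expansion τ Ξ hskew
    have hfinal : (comp χ' hord') R =
        ((comp χ' hord') R - rr a - ∑ x, ∑ x', coeff [x, x'] R •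
            (χ x * (χ' x' - χ x') + (χ' x - χ x) * χ x')) +
        ∑ x, ∑ x', coeff [x, x'] R •
            ((χ x - lin0 τ x) * Ξ x' + Ξ x * (χ x' - lin0 τ x')) +
        ∑ y, (X y * (S y + Ω y) - (S y + Ω y) * X y) := by
      have e1 : ∑ y, (X y * (S y + Ω y) - (S y + Ω y) * X y) =
          rr a + ∑ x, ∑ x', coeff [x, x'] R • (lin0 τ x * Ξ x' + Ξ x * lin0 τ x') := by
        rw [hexp]
        conv_rhs => rw [hrexp]
        rw [← Finset.sum_add_distrib]
        refine Finset.sum_congr rfl fun y _ => ?_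
        noncomm_ring
      have e2 : ∑ x, ∑ x', coeff [x, x'] R • (χ x * (χ' x' - χ x') + (χ' x - χ x) * χ x') =
          ∑ x, ∑ x', coeff [x, x'] R • ((χ x - lin0 τ x) * Ξ x' + Ξ x * (χ x' - lin0 τ x')) +
            ∑ x, ∑ x', coeff [x, x'] R • (lin0 τ x * Ξ x' + Ξ x * lin0 τ x') := by
        simp only [← Finset.sum_add_distrib]
        refine Finset.sum_congr rfl fun x _ => Finset.sum_congr rfl fun x' _ => ?_
        rw [← smul_add, hsub, hsub]
        congr 1
        noncomm_ring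
      rw [e1, e2]
      abel
    have hmem : ∑ x, ∑ x', coeff [x, x'] R •
        ((χ x - lin0 τ x) * Ξ x' + Ξ x * (χ x' - lin0 τ x')) ∈ ordGE Y F (m + 2) := by
      refine AddSubgroup.sum_mem _ fun x _ => AddSubgroup.sum_mem _ fun x' _ => ?_
      refine smul_mem_ordGE _ (add_mem ?_ ?_)
      · exact mul_mem_ordGE' (hlin x) (hΞ x') (by omega)
      · exact mul_mem_ordGE (hΞ x) (hlin x')
    show (comp χ' hord') R ∈ ordGE Y F (m + 1 + 1)
    rw [hfinal]
    refine add_mem (add_mem hC hmem) (AddSubgroup.sum_mem _ fun y _ => sub_mem ?_ ?_)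
    · exact mul_mem_ordGE' (X_mem_ordGE y) (hΩS y) (by omega)
    · exact mul_mem_ordGE (hΩS y) (X_mem_ordGE y)

/-- **Lemma H′, general form.** `F_i` series with zero constant term, `R_a` cyc-null with zero
constant term, `τ y` tangent vectors in the kernel of all `dF_i` with `ω_a(τ y, τ y') = 0`, such that
`Z ↦ (dF_i(Z); ω_a(τ y, Z))` is onto.  Then there is `Θ` with linear part `∑ y, τ y x • y`, and
`F_i ∘ Θ = 0`, `R_a ∘ Θ = 0`. -/
theorem exists_Theta (hF0 : ∀ i, coeff [] (Fi i) = 0) (hR0 : ∀ a, coeff [] (Ra a) = 0)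
    (hRc : ∀ a, CycNull (Ra a))
    (hdF : ∀ i y, dLin (Fi i) (τ y) = 0)
    (hω : ∀ a y y', form (Ra a) (τ y) (τ y') = 0)
    (hsurj : ∀ (p : I → F) (q : A → Y → F), ∃ z : L → F,
      (∀ i, dLin (Fi i) z = p i) ∧ (∀ a y, form (Ra a) (τ y) z = q a y)) :
    ∃ (Θ : L → NCSeries Y F) (hΘ : ∀ x, Θ x ∈ ordGE Y F 1),
      (∀ x y, coeff [y] (Θ x) = τ y x) ∧
      (∀ i, comp Θ hΘ (Fi i) = 0) ∧ (∀ a, comp Θ hΘ (Ra a) = 0) := by
  classical
  have hR1 : ∀ a x, coeff [x] (Ra a) = 0 := fun a x => CycNull.coeff_single (hRc a) x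
  have hbase := isApprox_two hF0 hR0 hR1 hdF hω
  -- the sequence of approximations
  have hs : ∀ n : ℕ, ∀ χ : {χ : L → NCSeries Y F // IsApprox Fi Ra τ (n + 2) χ},
      ∃ χ' : {χ : L → NCSeries Y F // IsApprox Fi Ra τ (n + 3) χ},
        ∀ x, χ'.1 x - χ.1 x ∈ ordGE Y F (n + 2) := by
    intro n χ
    obtain ⟨χ', h1, h2⟩ := step hR0 hRc hsurj (m := n + 2) (by omega) χ.2
    exact ⟨⟨χ', h1⟩, h2⟩
  choose next hnext using hs
  let s : ∀ n : ℕ, {χ : L → NCSeries Y F // IsApprox Fi Ra τ (n + 2) χ} :=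
    fun n => Nat.rec ⟨lin0 τ, hbase⟩ (fun n χ => next n χ) n
  have hsstep : ∀ n x, (s (n + 1)).1 x - (s n).1 x ∈ ordGE Y F (n + 2) := fun n x => hnext n (s n) x
  -- the limit, coefficientwise
  have hlim : ∀ x, ∃ l : NCSeries Y F, ∀ n, l - (s n).1 x ∈ ordGE Y F n := by
    intro x
    obtain ⟨l, hl⟩ := (Filt.ordFilt F Y).complete (fun n => (s n).1 x) (fun n =>
      Filt.mem_ordFilt_iff.mpr (ordGE_mono (by omega) (hsstep n x)))
    exact ⟨l, fun n => Filt.mem_ordFilt_iff.mp (hl n)⟩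
  choose Θ hΘs using hlim
  have hΘ2 : ∀ x, Θ x - (s 0).1 x ∈ ordGE Y F 2 := by
    intro x
    have h1 := hΘs x 2
    have h2 : (s 2).1 x - (s 1).1 x ∈ ordGE Y F 3 := hsstep 1 x
    have h3 : (s 1).1 x - (s 0).1 x ∈ ordGE Y F 2 := hsstep 0 x
    have e : Θ x - (s 0).1 x = (Θ x - (s 2).1 x) + ((s 2).1 x - (s 1).1 x) +
      ((s 1).1 x - (s 0).1 x) := by
      abel
    rw [e]
    exact add_mem (add_mem h1 (ordGE_mono (by omega) h2)) h3
  have hΘ1 : ∀ x, Θ x ∈ ordGE Y F 1 := by
    intro x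
    have : Θ x = (Θ x - (s 0).1 x) + (s 0).1 x := by abel
    rw [this]
    exact add_mem (ordGE_mono (by omega) (hΘ2 x)) ((s 0).2.ord x)
  refine ⟨Θ, hΘ1, fun x y => ?_, fun i => ?_, fun a => ?_⟩
  · have h := hΘ2 x [y] (by simp)
    rw [coeff_sub, sub_eq_zero] at h
    rw [h]
    exact (s 0).2.lin x y
  · refine eq_zero_of_forall_ordGE fun n => ?_
    have h1 := comp_sub_mem (s n).2.ord hΘ1 (fun x => hΘs x n) (Fi i)
    have h2 := ordGE_mono (Nat.le_add_right n 2) ((s n).2.hF i)
    have := add_mem h1 h2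
    rwa [sub_add_cancel] at this
  · refine eq_zero_of_forall_ordGE fun n => ?_
    have h1 := comp_sub_mem (s n).2.ord hΘ1 (fun x => hΘs x n) (Ra a)
    have h2 := ordGE_mono (by omega : n ≤ n + 2 + 1) ((s n).2.hR a)
    have := add_mem h1 h2
    rwa [sub_add_cancel] at this

/-- Skewness of `form` for a cyc-null series. -/
theorem form_skew {R : NCSeries L F} (hR : CycNull R) (z z' : L → F) :
    form R z z' = - form R z' z := by
  unfold form
  rw [Finset.sum_comm, ← Finset.sum_neg_distrib]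
  refine Finset.sum_congr rfl fun x' _ => ?_
  rw [← Finset.sum_neg_distrib]
  refine Finset.sum_congr rfl fun x _ => ?_
  rw [CycNull.coeff_pair hR x x']
  ring

theorem form_self {R : NCSeries L F} (hR : CycNull R) (z : L → F) : form R z z = 0 := by
  have h := form_skew hR z z
  have h2 : (2 : F) * form R z z = 0 := by
    rw [two_mul]
    nth_rewrite 1 [h]
    ring
  exact (mul_eq_zero.mp h2).resolve_left two_ne_zero

/-- **Lemma H′ (blueprint section 5(d))**, two tangent vectors `v`, `w`, target letters `Fin 2`. -/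
theorem exists_Theta_two (hF0 : ∀ i, coeff [] (Fi i) = 0) (hR0 : ∀ a, coeff [] (Ra a) = 0)
    (hRc : ∀ a, CycNull (Ra a)) {v w : L → F}
    (hdFv : ∀ i, dLin (Fi i) v = 0) (hdFw : ∀ i, dLin (Fi i) w = 0)
    (hω : ∀ a, form (Ra a) v w = 0)
    (hsurj : ∀ (p : I → F) (q q' : A → F), ∃ z : L → F, (∀ i, dLin (Fi i) z = p i) ∧
      (∀ a, form (Ra a) v z = q a) ∧ (∀ a, form (Ra a) w z = q' a)) :
    ∃ (Θ : L → NCSeries (Fin 2) F) (hΘ : ∀ x, Θ x ∈ ordGE (Fin 2) F 1),
      (∀ x, coeff [0] (Θ x) = v x) ∧ (∀ x, coeff [1] (Θ x) = w x) ∧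
      (∀ i, comp Θ hΘ (Fi i) = 0) ∧ (∀ a, comp Θ hΘ (Ra a) = 0) := by
  let τ : Fin 2 → L → F := fun j => if j = 0 then v else w
  have τ0 : τ 0 = v := rfl
  have τ1 : τ 1 = w := rfl
  have hall : ∀ j : Fin 2, j = 0 ∨ j = 1 := by
    intro j
    fin_cases j <;> simp
  obtain ⟨Θ, hΘ, h1, h2, h3⟩ := exists_Theta (Fi := Fi) (Ra := Ra) (τ := τ) hF0 hR0 hRc
    (fun i j => by
      rcases hall j with rfl | rfl
      · exact hdFv i
      · exact hdFw i)
    (fun a j j' => by
      rcases hall j with rfl | rfl <;> rcases hall j' with rfl | rfl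
      · exact form_self (hRc a) _
      · exact hω a
      · rw [form_skew (hRc a), τ1, τ0, hω a, neg_zero]
      · exact form_self (hRc a) _)
    (fun p q => by
      obtain ⟨z, hz1, hz2, hz3⟩ := hsurj p (fun a => q a 0) (fun a => q a 1)
      refine ⟨z, hz1, fun a j => ?_⟩
      rcases hall j with rfl | rfl
      · exact hz2 a
      · exact hz3 a)
  exact ⟨Θ, hΘ, fun x => h1 x 0, fun x => h1 x 1, h2, h3⟩

end Main

end Crest.Agent.Lib.Kurosh.LemmaH
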