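import Crest.Agent.Lib.Kurosh.TildeStub
import Crest.Agent.Lib.Kurosh.LevelUp

/-!
# Shim: `LevelStub` now re-exports `TildeStub` (temporary, until helper29's Tilde lands) and the real
`LevelUp` (helper2).
-/
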