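import Mathlib
import Crest.Agent.Lib.Kurosh.Potential
import Crest.Agent.Lib.Kurosh.AStepW
import Crest.Agent.Lib.Kurosh.TheoremR
import Crest.Agent.Lib.Kurosh.FieldRL
import Crest.Agent.Lib.Kurosh.KPrime

/-!
# S0270: `rel_pot`: relations give vanishing cyclic sums of potentials (helper10)

Bridge between the functional `τ₀ z = tr (λ (z.coeff 0))` used in `RelDir`/`TheoremRC` and the functionals
`Te e` of `Potential`.  `rel_pot` is `Potential.cycSum_of_monBase` in the form needed by Theorem R.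
-/

set_option autoImplicit false

open scoped TensorProduct

namespace Crest.Agent.Lib.Kurosh.RelPot

open RatExt NCSeries PsiCore Potential

set_option linter.unusedSectionVars false

variable {Y : Type} [Fintype Y] [DecidableEq Y]
variable {Z K : Type} [Field Z] [Field K] [Algebra Z K]
variable {m : ℕ} [NeZero m] [CharZero Z] [FiniteDimensional Z K]

lemma sR_zpow_eq_one {e : ℤ} (he : (m : ℤ) ∣ e) : (sR Z Y m K) ^ e = 1 := by
  obtain ⟨k, rfl⟩ := he
  rw [zpow_mul, zpow_natCast, sR_pow_m, one_zpow]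

/-- `ϖ^e` is central when `m ∣ e`. -/
lemma mon_one_central {e : ℤ} (he : (m : ℤ) ∣ e) (g : KT Z K Y m) :
    (SL.mon 1 e : KT Z K Y m) * g = g * SL.mon 1 e := by
  apply SL.ext
  funext n
  rw [SL.coeff_mon_mul, SL.coeff_mul_mon, one_mul, map_one, mul_one, sR_zpow_eq_one he]
  rfl

/-- The functional `τ₀` at `ϖ^(-e) v` is `Te e v`. -/
lemma constTr_mon_mul {e : ℤ} (he : (m : ℤ) ∣ e) (v : KT Z K Y m) :
    AStepW.constTr (AStepW.lamTr Z Y m (Algebra.trace Z K)) ((SL.mon 1 (-e) : KT Z K Y m) * v) = Te e v := by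
  rw [AStepW.constTr_apply, SL.coeff_mon_mul, one_mul, sR_zpow_eq_one (dvd_neg.mpr he), zero_sub, neg_neg]
  rfl

/-- A direction shifted by `ϖ^(-e)`, `m ∣ e`. -/
lemma dir_shift (B : Base K (RL Z Y m K) (sR Z Y m K) Y) (g : NCSeries Y K) (x0 : Y → L0 Z Y m) (j e : ℤ)
    (he : (m : ℤ) ∣ e) :
    B.dir (fun y => (SL.mon (iotaL Z Y m K (x0 y)) (j - e) : KT Z K Y m)) g =
      (SL.mon 1 (-e) : KT Z K Y m) * B.dir (monDir x0 j) g := by
  have hc : ∀ h : KT Z K Y m, (SL.mon 1 (-e) : KT Z K Y m) * h = h * SL.mon 1 (-e) :=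
    mon_one_central (dvd_neg.mpr he)
  rw [← B.dir_mul_left _ hc]
  congr 1
  funext y
  simp only [monDir]
  rw [SL.mon_mul_mon, one_mul, sR_zpow_eq_one (dvd_neg.mpr he)]
  congr 1
  ring

/-- **`rel_pot`**. `hpair`: the relation `x` pairs to zero with all monomial directions, for `τ₀`. -/
theorem rel_pot {B : Base K (RL Z Y m K) (sR Z Y m K) Y}
    (hB : IsMonBase B (AStepW.genB Z Y m K) (iota Z Y m K : K →+* RL Z Y m K))
    (g : NCSeries Y K) {x : KT Z K Y m} (b : ℕ → RL Z Y m K)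
    (hb : KPrime.IsExpansion (L := RL Z Y m K) (B.value g) x 0 b)
    (hpair : ∀ (xx : Y → L0 Z Y m) (j : ℤ),
      AStepW.constTr (AStepW.lamTr Z Y m (Algebra.trace Z K))
        (x * B.dir (fun y => (SL.mon (iotaL Z Y m K (xx y)) j : KT Z K Y m)) g) = 0)
    (D : ℕ) (hm : (Fintype.card Y) ^ D * D ≤ m) (w : List Y) (hw : w.length ≤ D + 1) :
    Stab.cycSum (Stab.potL (Z := Z) (K := K) (L0 Z Y m) g (TheoremR.Gof b)) w = 0 := by
  cases w with
  | nil => simp [Stab.cycSum]
  | cons y v =>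
    have hN : v.length ≤ D := by simpa using hw
    have hcard : 1 ≤ Fintype.card Y := Fintype.card_pos_iff.mpr ⟨y⟩
    have hm' : (Fintype.card Y) ^ v.length * v.length ≤ m :=
      le_trans (Nat.mul_le_mul (Nat.pow_le_pow_right hcard hN) hN) hm
    have hMon : MonBase B (T Z Y m 0) := by
      refine ⟨hB.τ, hB.ρ, hB.fix⟩
    have hexp : ∀ N : ℕ, (x - ∑ k ∈ Finset.range N, (SL.C (b k) : KT Z K Y m) * (B.value g) ^ k).LB (N : ℤ) := by
      intro N
      have h := hb.approx N
      simp only [zero_add] at h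
      simpa only [zpow_natCast] using h
    have hrel : ∀ (x0 : Y → L0 Z Y m) (j N : ℕ), (m : ℤ) ∣ (j : ℤ) + N → 1 ≤ j →
        Te ((j : ℤ) + N) (x * B.dir (monDir x0 (j : ℤ)) g) = 0 := by
      intro x0 j N hd _
      have h1 := hpair x0 ((j : ℤ) - ((j : ℤ) + N))
      rw [dir_shift B g x0 (j : ℤ) ((j : ℤ) + N) hd, ← mul_assoc,
        ← mon_one_central (dvd_neg.mpr hd) x, mul_assoc, constTr_mon_mul hd] at h1
      exact h1
    have h := cycSum_of_monBase hMon g x b hb.fixed hexp hrel v.length hm' y v rfl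
    have e : TheoremR.Gof b = fun n : ℕ => ((n : L0 Z Y m)⁻¹) • b (n - 1) := by
      funext n
      unfold TheoremR.Gof
      by_cases hn : n = 0
      · subst hn; simp
      · rw [if_neg hn]
    rw [e]
    exact h

end Crest.Agent.Lib.Kurosh.RelPot
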