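import Crest.Agent.Lib.Kurosh.MeasInst

/-!
# The centre of `Tilde R` is `Zp` for `R` central (S0270, helper37)
-/

set_option autoImplicit false

namespace Crest.Agent.Lib.Kurosh.TildeCentral

open RatExt SL MeasInst
open scoped TensorProduct

variable (Z : Type*) [Field Z] (Y : Type*) (m : ℕ) [NeZero m]
variable {A : Type*} [Ring A] [Algebra Z A]

omit [NeZero m] in
/-- The action of the powers of `sR` on the generic letters. -/
lemma sR_zpow_iotaL_T (y : Y) (i : ℤ) (r : ZMod m) :
    (sR Z Y m A ^ i) (iotaL Z Y m A (T Z Y m r y)) = iotaL Z Y m A (T Z Y m (r + (i : ZMod m)) y) := by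
  induction i using Int.induction_on generalizing r with
  | zero => simp
  | succ k ih =>
    rw [zpow_add_one, RingAut.mul_apply, sR_iotaL, s_T, ih]
    congr 2
    push_cast
    ring
  | pred k ih =>
    have hinv : (sR Z Y m A)⁻¹ (iotaL Z Y m A (T Z Y m r y)) = iotaL Z Y m A (T Z Y m (r - 1) y) := by
      apply (sR Z Y m A).injective
      have : sR Z Y m A ((sR Z Y m A)⁻¹ (iotaL Z Y m A (T Z Y m r y))) = iotaL Z Y m A (T Z Y m r y) := by
        show sR Z Y m A ((sR Z Y m A).symm _) = _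
        rw [RingEquiv.apply_symm_apply]
      rw [this, sR_iotaL, s_T, sub_add_cancel]
    rw [zpow_sub_one, RingAut.mul_apply, hinv, ih]
    congr 2
    push_cast
    ring

omit [NeZero m] in
/-- The separation hypothesis of `central_iff_range`. -/
lemma hsep [Nontrivial A] [Nonempty Y] (i : ℤ) (hi : ¬ (m : ℤ) ∣ i) :
    ∃ a : RL Z Y m A, (∀ x, a * x = x * a) ∧ (sR Z Y m A ^ i) a ≠ a := by
  obtain ⟨y⟩ := ‹Nonempty Y›
  refine ⟨iotaL Z Y m A (T Z Y m 0 y), fun x => ?_, ?_⟩
  · rw [iotaL_eq_algebraMap]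
    exact Algebra.commutes _ x
  · rw [sR_zpow_iotaL_T]
    intro h
    have h1 := iotaL_injective Z Y m A h
    have h2 := T_injective Z Y m h1
    have h3 := h2.1
    rw [zero_add] at h3
    exact hi ((ZMod.intCast_zmod_eq_zero_iff_dvd i m).1 h3)

/-- Fixed central elements of `L0 ⊗ A`, `A` central over `Z`, come from `Z0`. -/
lemma hfix [Module.Finite Z A] [Nontrivial A] [Algebra.IsCentral Z A] (x : RL Z Y m A)
    (hc : ∀ y, x * y = y * x) (hs : sR Z Y m A x = x) :
    x ∈ (algebraMap (Z0 Z Y m) (RL Z Y m A)).range := by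
  have hmem : x ∈ K0sub Z Y m A := ⟨hs, hc⟩
  have hd : Module.finrank (Z0 Z Y m) (K0sub Z Y m A) = 1 := by
    rw [finrank_K0sub, Algebra.IsCentral.center_eq_bot, Subalgebra.finrank_bot]
  -- `K0sub` is one-dimensional and contains `1`.
  have hone : (1 : K0sub Z Y m A) ≠ 0 := by
    intro h
    have : (1 : RL Z Y m A) = 0 := congrArg Subtype.val h
    have h2 : (1 : A) = 0 := by
      apply iota_injective Z Y m A
      simp only [iota, map_zero]
      exact this
    exact one_ne_zero h2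
  obtain ⟨c, hc'⟩ := (finrank_eq_one_iff_of_nonzero' (1 : K0sub Z Y m A) hone).1 hd ⟨x, hmem⟩
  refine ⟨c, ?_⟩
  have := congrArg Subtype.val hc'
  simp only [Subalgebra.coe_smul, OneMemClass.coe_one] at this
  rw [Algebra.algebraMap_eq_smul_one]
  exact this

variable [Nonempty Y]
variable {E : Type*} [DivisionRing E] [Algebra Z E] [FiniteDimensional Z E] [Infinite Z]

/-- **The centre of `Tilde E` is the image of `Zp`.** -/
theorem isCentral_tilde [Algebra.IsCentral Z E]
    [Algebra (Lau (Z0 Z Y m)) (SL (RL Z Y m E) (sR Z Y m E))]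
    (hA : ∀ c : Lau (Z0 Z Y m), algebraMap (Lau (Z0 Z Y m)) (SL (RL Z Y m E) (sR Z Y m E)) c =
      stretch (stretchData_RL Z Y m) c) :
    Algebra.IsCentral (Lau (Z0 Z Y m)) (SL (RL Z Y m E) (sR Z Y m E)) := by
  refine ⟨fun x hx => ?_⟩
  have hx' : ∀ g, x * g = g * x := fun g => (Subalgebra.mem_center_iff.mp hx g).symm
  obtain ⟨c, rfl⟩ := (central_iff_range (stretchData_RL Z Y m) (hsep Z Y m) (hfix Z Y m) x).1 hx'
  rw [← hA]
  exact Subalgebra.algebraMap_mem _ c

end Crest.Agent.Lib.Kurosh.TildeCentral
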