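import Crest.Agent.Lib.Kurosh.SkewLaurentHat
import Crest.Agent.Lib.Kurosh.RatExt

/-!
# The trace `SL S σ → Lau F` (S0270, helper37)

For `t : S →+ F`: `∑ x_i ϖ^i ↦ ∑_k t(x_{mk}) ϖ^{k}`, where `ϖ` of `Lau F` is `ϖ^m`.

* `traceFun`, `coeff_traceFun`, `lB_traceFun`, `traceAdd` (additive);
* `traceFun_stretch_mul`: `Lau F`-linearity if `t (φ c * x) = c * t x`;
* `traceFun_mul_comm`: cyclicity if `t` is cyclic and `σ`-invariant (and `σ^m = 1`);
* `traceFun_one`;
* `traceLin`: the linear map, for an algebra structure agreeing with the stretch;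
* concrete functionals: `trZ0 : L0 →+ Z0` and `lamZ0 lam : R_L →+ Z0`, `x ↦ tr (lam x)`.
-/

set_option autoImplicit false

namespace Crest.Agent.Lib.Kurosh.TraceSL

open SL

section Abstract

variable {F : Type*} [Field F] {S : Type*} [Ring S] {σ : RingAut S} {m : ℕ}

/-- `∑ x_i ϖ^i ↦ ∑_k t(x_{mk}) ϖ^k`. -/
noncomputable def traceFun (hm : 0 < m) (t : S →+ F) (x : SL S σ) : Lau F :=
  ⟨fun k => t (x.coeff ((m : ℤ) * k)), by
    obtain ⟨a, ha⟩ := x.exists_LB
    refine ⟨min a 0, fun k hk => ?_⟩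
    have hk0 : k < 0 := lt_of_lt_of_le hk (min_le_right _ _)
    have hka : k < a := lt_of_lt_of_le hk (min_le_left _ _)
    have hm' : (1 : ℤ) ≤ m := by exact_mod_cast hm
    have : (m : ℤ) * k < a := by nlinarith
    rw [ha _ this, map_zero]⟩

@[simp] lemma coeff_traceFun (hm : 0 < m) (t : S →+ F) (x : SL S σ) (k : ℤ) :
    (traceFun hm t x).coeff k = t (x.coeff ((m : ℤ) * k)) := rfl

lemma lB_traceFun (hm : 0 < m) (t : S →+ F) {x : SL S σ} {a b : ℤ} (h : x.LB b)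
    (hab : (m : ℤ) * (a - 1) < b) : (traceFun hm t x).LB a := by
  intro k hk
  have hm' : (0 : ℤ) < m := by exact_mod_cast hm
  have h1 : (m : ℤ) * k ≤ m * (a - 1) := by
    apply mul_le_mul_of_nonneg_left (by omega) hm'.le
  rw [coeff_traceFun, h _ (by omega), map_zero]

/-- Positive valuation goes to positive valuation. -/
lemma lB_traceFun_one (hm : 0 < m) (t : S →+ F) {x : SL S σ} (h : x.LB 1) :
    (traceFun hm t x).LB 1 :=
  lB_traceFun hm t h (by simp)

/-- Valuation `≥ 0` goes to valuation `≥ 0`. -/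
lemma lB_traceFun_zero (hm : 0 < m) (t : S →+ F) {x : SL S σ} (h : x.LB 0) :
    (traceFun hm t x).LB 0 := by
  refine lB_traceFun hm t h ?_
  have hm' : (0 : ℤ) < m := by exact_mod_cast hm
  nlinarith

/-- The additive map. -/
noncomputable def traceAdd (hm : 0 < m) (t : S →+ F) : SL S σ →+ Lau F where
  toFun := traceFun hm t
  map_zero' := by
    apply SL.ext
    funext k
    rw [coeff_traceFun]
    exact map_zero t
  map_add' x y := by
    apply SL.ext
    funext k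
    rw [coeff_traceFun, coeff_add, map_add, coeff_add, coeff_traceFun, coeff_traceFun]

@[simp] lemma traceAdd_apply (hm : 0 < m) (t : S →+ F) (x : SL S σ) :
    traceAdd hm t x = traceFun hm t x := rfl

lemma traceFun_one (hm : 0 < m) (t : S →+ F) :
    traceFun hm t (1 : SL S σ) = SL.C (t 1) := by
  apply SL.ext
  funext k
  have hm' : (m : ℤ) ≠ 0 := by exact_mod_cast hm.ne'
  rw [coeff_traceFun, coeff_one, SL.C_apply, coeff_mon]
  by_cases hk : k = 0
  · subst hk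
    simp
  · have : (m : ℤ) * k ≠ 0 := mul_ne_zero hm' hk
    rw [if_neg this, if_neg hk, map_zero]

lemma traceFun_one_ne (hm : 0 < m) (t : S →+ F) (ht : t 1 ≠ 0) :
    traceFun hm t (1 : SL S σ) ≠ 0 := by
  rw [traceFun_one]
  intro h
  exact ht (SL.C_injective (h.trans (map_zero _).symm))

lemma inv_zpow' (t : S →+ F) (hinv : ∀ a, t (σ a) = t a) (k : ℤ) (a : S) : t ((σ ^ k) a) = t a := by
  have h1 : ∀ (n : ℕ) (a : S), t ((σ ^ n) a) = t a := by
    intro n a
    induction n with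
    | zero => rfl
    | succ n ih =>
      rw [pow_succ']
      show t (σ ((σ ^ n) a)) = _
      rw [hinv, ih]
  have h2 : ∀ (n : ℕ) (a : S), t ((σ⁻¹ ^ n) a) = t a := by
    intro n a
    induction n with
    | zero => rfl
    | succ n ih =>
      rw [pow_succ']
      show t (σ⁻¹ ((σ⁻¹ ^ n) a)) = _
      have : t (σ⁻¹ ((σ⁻¹ ^ n) a)) = t (σ (σ⁻¹ ((σ⁻¹ ^ n) a))) := (hinv _).symm
      rw [this]
      have h3 : σ (σ⁻¹ ((σ⁻¹ ^ n) a)) = (σ⁻¹ ^ n) a := by
        show σ (σ.symm _) = _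
        rw [RingEquiv.apply_symm_apply]
      rw [h3, ih]
  obtain ⟨n, rfl | rfl⟩ := k.eq_nat_or_neg
  · simpa using h1 n a
  · simpa using h2 n a

/-- **Cyclicity.** -/
theorem traceFun_mul_comm (hm : 0 < m) (hσ : σ ^ m = 1) (t : S →+ F)
    (hcyc : ∀ a b, t (a * b) = t (b * a)) (hinv : ∀ a, t (σ a) = t a) (x y : SL S σ) :
    traceFun hm t (x * y) = traceFun hm t (y * x) := by
  obtain ⟨a, ha⟩ := x.exists_LB
  obtain ⟨b, hb⟩ := y.exists_LB
  apply SL.ext
  funext k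
  rw [coeff_traceFun, coeff_traceFun, coeff_mul ha hb, coeff_mul hb ha, map_sum, map_sum]
  refine Finset.sum_bij' (fun i _ => (m : ℤ) * k - i) (fun i _ => (m : ℤ) * k - i) ?_ ?_ ?_ ?_ ?_
  · intro i hi
    rw [Finset.mem_Icc] at hi ⊢
    omega
  · intro i hi
    rw [Finset.mem_Icc] at hi ⊢
    omega
  · intro i _
    simp
  · intro i _
    simp
  · intro i _
    have e2 : (m : ℤ) * k - ((m : ℤ) * k - i) = i := by ring
    rw [e2]
    -- `t (x_i σ^i y_j) = t (y_j σ^{j} x_i)`, `j = mk - i`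
    set j := (m : ℤ) * k - i with hj
    rw [hcyc]
    have hσk : σ ^ ((m : ℤ) * k) = 1 := by
      rw [zpow_mul, zpow_natCast, hσ, one_zpow]
    have e3 : (σ ^ j) (x.coeff i) = (σ ^ (-i)) (x.coeff i) := by
      rw [hj, sub_eq_add_neg, zpow_add, hσk, one_mul]
    rw [e3]
    have e4 : (σ ^ i) (y.coeff j * (σ ^ (-i)) (x.coeff i)) = (σ ^ i) (y.coeff j) * x.coeff i := by
      rw [map_mul]
      congr 1
      show ((σ ^ i) * (σ ^ (-i))) (x.coeff i) = _
      rw [zpow_neg, mul_inv_cancel]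
      rfl
    rw [← inv_zpow' t hinv i (y.coeff j * (σ ^ (-i)) (x.coeff i)), e4]

variable {φ : F →+* S}

/-- **`Lau F`-linearity.** -/
theorem traceFun_stretch_mul (h : StretchData φ σ m) (t : S →+ F)
    (htφ : ∀ c x, t (φ c * x) = c * t x) (z : Lau F) (x : SL S σ) :
    traceFun h.pos t (stretch h z * x) = z * traceFun h.pos t x := by
  have hm' : (0 : ℤ) < m := by exact_mod_cast h.pos
  obtain ⟨a, ha⟩ := z.exists_LB
  obtain ⟨c, hc⟩ := x.exists_LB
  -- a lower bound of `x` which is a multiple of `m`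
  obtain ⟨b, hb⟩ : ∃ b : ℤ, x.LB ((m : ℤ) * b) := by
    refine ⟨min c 0, hc.mono ?_⟩
    have h1 : min c 0 ≤ c := min_le_left _ _
    have h2 : min c 0 ≤ 0 := min_le_right _ _
    nlinarith
  have hT : (traceFun h.pos t x).LB b := by
    intro k hk
    rw [coeff_traceFun, hb _ (by nlinarith), map_zero]
  apply SL.ext
  funext k
  rw [coeff_traceFun, coeff_mul (lB_stretch h ha) hb, coeff_mul ha hT, map_sum]
  symm
  refine Finset.sum_of_injOn (fun j => (m : ℤ) * j) ?_ ?_ ?_ ?_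
  · intro i _ j _ hij
    exact mul_left_cancel₀ hm'.ne' hij
  · intro i hi
    simp only [Finset.coe_Icc, Set.mem_Icc] at hi ⊢
    constructor
    · exact mul_le_mul_of_nonneg_left hi.1 hm'.le
    · have := mul_le_mul_of_nonneg_left hi.2 hm'.le
      linarith
  · intro i hi hnot
    have hndvd : ¬ (m : ℤ) ∣ i := by
      rintro ⟨j, rfl⟩
      apply hnot
      refine ⟨j, ?_, rfl⟩
      simp only [Finset.mem_Icc] at hi
      simp only [Finset.coe_Icc, Set.mem_Icc]
      constructor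
      · exact le_of_mul_le_mul_left hi.1 hm'
      · have : (m : ℤ) * j ≤ m * (k - b) := by linarith [hi.2]
        exact le_of_mul_le_mul_left this hm'
    rw [coeff_stretch_of_not_dvd h z hndvd, zero_mul, map_zero]
  · intro j _
    rw [coeff_stretch_mul, h.zpow_of_dvd (dvd_mul_right _ _), htφ, coeff_traceFun, one_zpow_apply]
    congr 3
    ring

/-- The trace as a `Lau F`-linear map, for an algebra structure agreeing with the stretch. -/
noncomputable def traceLin (h : StretchData φ σ m) [Algebra (Lau F) (SL S σ)]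
    (hA : ∀ c : Lau F, algebraMap (Lau F) (SL S σ) c = stretch h c) (t : S →+ F)
    (htφ : ∀ c x, t (φ c * x) = c * t x) : SL S σ →ₗ[Lau F] Lau F where
  toFun := traceFun h.pos t
  map_add' := (traceAdd h.pos t).map_add
  map_smul' z x := by
    rw [Algebra.smul_def, hA, traceFun_stretch_mul h t htφ, RingHom.id_apply, smul_eq_mul]

@[simp] lemma traceLin_apply (h : StretchData φ σ m) [Algebra (Lau F) (SL S σ)]
    (hA : ∀ c : Lau F, algebraMap (Lau F) (SL S σ) c = stretch h c) (t : S →+ F)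
    (htφ : ∀ c x, t (φ c * x) = c * t x) (x : SL S σ) :
    traceLin h hA t htφ x = traceFun h.pos t x := rfl

end Abstract

section Concrete

open RatExt

variable (Z : Type*) [Field Z] (Y : Type*) (m : ℕ) [NeZero m]

/-- The trace `L0 → Z0`, additive. -/
noncomputable def trZ0 : L0 Z Y m →+ Z0 Z Y m := (trLin Z Y m).toAddMonoidHom

@[simp] lemma coe_trZ0 (x : L0 Z Y m) : ((trZ0 Z Y m x : Z0 Z Y m) : L0 Z Y m) = tr Z Y m x := rfl

lemma trZ0_smul (c : Z0 Z Y m) (x : L0 Z Y m) :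
    trZ0 Z Y m (algebraMap (Z0 Z Y m) (L0 Z Y m) c * x) = c * trZ0 Z Y m x := by
  apply Subtype.ext
  show tr Z Y m ((c : L0 Z Y m) * x) = (c : L0 Z Y m) * tr Z Y m x
  exact tr_mul_of_mem Z Y m c.2

lemma trZ0_cyc (a b : L0 Z Y m) : trZ0 Z Y m (a * b) = trZ0 Z Y m (b * a) := by
  rw [mul_comm]

lemma tr_s' (x : L0 Z Y m) : tr Z Y m (s Z Y m x) = tr Z Y m x := by
  have h : tr Z Y m (s Z Y m x) = s Z Y m (tr Z Y m x) := by
    unfold tr
    rw [map_sum]
    refine Finset.sum_congr rfl fun r _ => ?_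
    rw [← AlgEquiv.mul_apply, ← AlgEquiv.mul_apply, ← pow_succ, ← pow_succ']
  rw [h, s_tr]

lemma trZ0_s (x : L0 Z Y m) : trZ0 Z Y m (s Z Y m x) = trZ0 Z Y m x :=
  Subtype.ext (tr_s' Z Y m x)

variable {R : Type*} [Ring R] [Algebra Z R]

/-- `x ↦ tr (lam x)`, `R_L → Z0`. -/
noncomputable def lamZ0 (f : R →ₗ[Z] Z) : RL Z Y m R →+ Z0 Z Y m :=
  (trZ0 Z Y m).comp (lam Z Y m f).toAddMonoidHom

lemma lamZ0_apply (f : R →ₗ[Z] Z) (x : RL Z Y m R) :
    lamZ0 Z Y m f x = trZ0 Z Y m (lam Z Y m f x) := rfl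

lemma coe_lamZ0 (f : R →ₗ[Z] Z) (x : RL Z Y m R) :
    ((lamZ0 Z Y m f x : Z0 Z Y m) : L0 Z Y m) = tr Z Y m (lam Z Y m f x) := rfl

lemma lamZ0_smul (f : R →ₗ[Z] Z) (c : Z0 Z Y m) (x : RL Z Y m R) :
    lamZ0 Z Y m f (algebraMap (Z0 Z Y m) (RL Z Y m R) c * x) = c * lamZ0 Z Y m f x := by
  rw [lamZ0_apply, lamZ0_apply]
  have e : algebraMap (Z0 Z Y m) (RL Z Y m R) c = iotaL Z Y m R (c : L0 Z Y m) := by
    rw [iotaL_eq_algebraMap]
    rfl
  rw [e, lam_iotaL_mul]
  exact trZ0_smul Z Y m c _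

lemma lamZ0_sR (f : R →ₗ[Z] Z) (x : RL Z Y m R) :
    lamZ0 Z Y m f (sR Z Y m R x) = lamZ0 Z Y m f x := by
  rw [lamZ0_apply, lamZ0_apply, lam_sR, trZ0_s]

omit [NeZero m] in
theorem lam_mul_comm (f : R →ₗ[Z] Z) (hf : ∀ a b, f (a * b) = f (b * a)) (x y : RL Z Y m R) :
    lam Z Y m f (x * y) = lam Z Y m f (y * x) := by
  induction x using TensorProduct.induction_on with
  | zero => simp
  | add a b ha hb => simp only [add_mul, mul_add, map_add, ha, hb]
  | tmul c r =>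
    induction y using TensorProduct.induction_on with
    | zero => simp
    | add a b ha hb => simp only [add_mul, mul_add, map_add, ha, hb]
    | tmul c' r' =>
      simp only [Algebra.TensorProduct.tmul_mul_tmul, lam_tmul]
      rw [hf, mul_comm c c']

lemma lamZ0_cyc (f : R →ₗ[Z] Z) (hf : ∀ a b, f (a * b) = f (b * a)) (x y : RL Z Y m R) :
    lamZ0 Z Y m f (x * y) = lamZ0 Z Y m f (y * x) := by
  rw [lamZ0_apply, lamZ0_apply, lam_mul_comm Z Y m f hf]

/-- `t 1` for `t = lamZ0`. -/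
lemma coe_lamZ0_one (f : R →ₗ[Z] Z) :
    ((lamZ0 Z Y m f 1 : Z0 Z Y m) : L0 Z Y m) = (m : L0 Z Y m) * algebraMap Z (L0 Z Y m) (f 1) := by
  have h1 : lam Z Y m f (1 : RL Z Y m R) = algebraMap Z (L0 Z Y m) (f 1) := by
    have : (1 : RL Z Y m R) = (1 : L0 Z Y m) ⊗ₜ[Z] (1 : R) := rfl
    rw [this, lam_tmul, Algebra.smul_def, mul_one]
  rw [coe_lamZ0, h1, tr_of_mem]
  rw [mem_Z0]
  exact (s Z Y m).commutes _

/-- `t 1 ≠ 0` in characteristic zero, when `f 1 ≠ 0`. -/
theorem lamZ0_one_ne [CharZero Z] (f : R →ₗ[Z] Z) (hf1 : f 1 ≠ 0) : lamZ0 Z Y m f (1 : RL Z Y m R) ≠ 0 := by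
  have : CharZero (L0 Z Y m) := charZero_of_injective_algebraMap (algebraMap Z (L0 Z Y m)).injective
  intro h
  have h1 := coe_lamZ0_one Z Y m f
  rw [h] at h1
  have h2 : (m : L0 Z Y m) * algebraMap Z (L0 Z Y m) (f 1) ≠ 0 :=
    mul_ne_zero (Nat.cast_ne_zero.2 (NeZero.ne m))
      (fun h => hf1 ((map_eq_zero_iff _ (algebraMap Z (L0 Z Y m)).injective).1 h))
  exact h2 h1.symm

end Concrete

end Crest.Agent.Lib.Kurosh.TraceSL
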